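import Vale.Agent.P082.H770.Main

/-!
# The Kadison–Ringrose theorem and Ulam stability of von Neumann algebras
-/

namespace Vale.Agent.Results.P082.UlamStability

open Vale.Agent.P082

universe u v

/-- (1) `H_b^n(M, M) = 0` for all von Neumann algebras `M` and all `n ≥ 1`. (2) With absolute
constants `ε > 0` and `C`, for all von Neumann algebras `M`: approximately multiplicative linear
maps near the identity are near inner automorphisms (unitary ones in the involutive case),
approximately associative products near the product of `M` are near isomorphic ones, every normed
algebra that is almost isomorphic to `M` is isomorphic to `M`, and every C*-algebra that is almost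
*-isomorphic to `M` is *-isomorphic to `M`, by isomorphisms near the given maps. -/
theorem result :
    (∀ (H : Type u) [NormedAddCommGroup H] [InnerProductSpace ℂ H] [CompleteSpace H]
      (M : VonNeumannAlgebra H), KadisonRingroseFor M) ∧
    ∃ ε C : ℝ, 0 < ε ∧
      ∀ (H : Type u) [NormedAddCommGroup H] [InnerProductSpace ℂ H] [CompleteSpace H]
        (M : VonNeumannAlgebra H),
        VNStableAutomorphisms M ε C ∧ VNStableProducts M ε C ∧
          VNStableIsomorphisms.{u, v} M ε C ∧ VNStableStarIsomorphisms.{u, v} M ε C :=
  ⟨fun _ _ _ _ M k => VN.kadison_ringrose M k, H770.stability.{u, v}⟩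

end Vale.Agent.Results.P082.UlamStability
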