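import Vale.Agent.P082.H304.Defs2
import Vale.Agent.P082.H304.Rigid

/-!
# The Kadison–Ringrose theorem, uniformly, with stability of cocycles and of the multiplication
-/

namespace Vale.Agent.Results.P082.UniformRigidity

open Vale.Agent.P082

universe u

/-- (1) For every `n = k + 1 ≥ 1` the bounded cohomology group `H_b^n(M, M)` of every von Neumann
algebra `M` vanishes. (2) For every `n` there is one constant `K`, the same for all von Neumann
algebras `M`, such that every bounded `n`-cochain `f` with `‖df‖ ≤ c` is at distance at most `K c`
from the coboundary `dg` of a cochain `g` with `‖g‖ ≤ K ‖f‖`. (3) There are absolute constants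
`ε > 0` and `C` such that, for every von Neumann algebra `M`, every associative multiplication on
the Banach space `M` at distance `δ ≤ ε` from the multiplication of `M` is transported to it by an
invertible operator `T` with `‖T - 1‖ ≤ C δ`. -/
theorem result :
    (∀ (k : ℕ) (H : Type u) [NormedAddCommGroup H] [InnerProductSpace ℂ H] [CompleteSpace H]
      (M : VonNeumannAlgebra H), VNVanishes M k) ∧
    (∀ k : ℕ, ∃ K : ℝ, 0 ≤ K ∧
      ∀ (H : Type u) [NormedAddCommGroup H] [InnerProductSpace ℂ H] [CompleteSpace H]
        (M : VonNeumannAlgebra H), VNNearCoboundaries M k K) ∧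
    ∃ ε C : ℝ, 0 < ε ∧
      ∀ (H : Type u) [NormedAddCommGroup H] [InnerProductSpace ℂ H] [CompleteSpace H]
        (M : VonNeumannAlgebra H), VNRigidMultiplication M ε C :=
  ⟨fun k _ _ _ _ M => VN.kadison_ringrose M k, H304.near.{u}, H304.rigidity.{u}⟩

end Vale.Agent.Results.P082.UniformRigidity
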